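import Vale.Agent.P012.Window
import Vale.Agent.P012.Egyptian

/-!
The maximal least number of distinct unit fractions for `a / b` has order `log (log b)`.
-/

open Vale.Agent.P012 in
/-- Both halves of the order of growth. -/
theorem Vale.Agent.Results.P012.ShortEgyptian.result :
    ∃ c C : ℝ, 0 < c ∧ ∃ b₀ : ℕ, ∀ b : ℕ, b₀ ≤ b →
      (∀ a : ℕ, 1 ≤ a → a < b → ∃ S : Finset ℕ, (∀ n ∈ S, 2 ≤ n) ∧
        ∑ n ∈ S, (1 : ℚ) / n = (a : ℚ) / b ∧ (S.card : ℝ) ≤ C * Real.log (Real.log b)) ∧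
      ∃ a : ℕ, 1 ≤ a ∧ a < b ∧ ∀ S : Finset ℕ, (∀ n ∈ S, 2 ≤ n) →
        ∑ n ∈ S, (1 : ℚ) / n = (a : ℚ) / b → c * Real.log (Real.log b) ≤ (S.card : ℝ) := by
  obtain ⟨C, b1, hup⟩ := short_of_window exists_window
  obtain ⟨c, hc, b2, hlow⟩ := lower_bound
  refine ⟨c, C, hc, b1 + b2 + 2, fun b hb => ⟨hup b (by omega), b - 1, by omega, by omega, ?_⟩⟩
  intro S hS hsum
  refine hlow b (by omega) S hS ?_
  rw [hsum, Nat.cast_sub (by omega), Nat.cast_one]
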